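import Vale.Agent.H16.GN2.Intrinsic3

/-!
# P058 (finite Euclidean Ramsey sets): cyclic quadrilaterals one of whose diagonals is cut by the
other in a totally real ratio with all conjugates in `(0, 1)` are classified, and the
subtransitive ones are Ramsey

Throughout, `p 0, p 1, p 2, p 3` are four distinct points of the Euclidean plane lying on a common
circle, and `lam`, `mu` in `(0, 1)` are real numbers with
`lam • p 0 + (1 - lam) • p 2 = mu • p 1 + (1 - mu) • p 3`: the diagonals `p 0 p 2` and `p 1 p 3`
of the cyclic quadrilateral cross, and cut each other in the ratios `lam` and `mu`.  (Every four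
distinct concyclic points, listed in their cyclic order, are of this form.)  No normal form is
used: the statement is about arbitrary such points.

Call an algebraic real number *good* if all real roots of its minimal polynomial over `ℚ` lie in
`(0, 1)`, and *totally good* if all complex roots of its minimal polynomial are real and lie in
`(0, 1)` (every rational in `(0, 1)`; every quadratic irrationality in `(0, 1)` whose conjugate
lies in `(0, 1)`; totally real numbers of any degree with all conjugates in `(0, 1)`).

1. If `lam` or `mu` is totally good, then
   * `p` is subtransitive (congruent to a subset of a finite transitive set) if and only if both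
     `lam` and `mu` are good;
   * `p` is subtransitive if and only if it is congruent to a subset of a finite set on which a
     soluble group of isometries acts transitively;
   * if `p` is subtransitive then `p` is Ramsey.
   Both ratios may be irrational of any degree here.
2. If `lam` and `mu` are good and, for one of the two, all complex roots of the minimal polynomial
   lie in the open disc with diameter `[0, 1]` (`‖z - 1/2‖ < 1/2`), then `p` is Ramsey and
   congruent to a subset of a finite set on which a soluble group of isometries acts transitively.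
3. In general: if `p` is subtransitive, then for every field `K` with two ring homomorphisms
   `ι, ι' : K → ℝ` and elements `x`, `y` with `ι x = lam`, `ι y = mu`, it is not the case that one
   of `ι' x`, `ι' y` lies in `(0, 1)` and the other one lies outside `[0, 1]`.
4. If `|p 0 p 3|²` is a rational multiple of `|p 1 p 2|²`, or `|p 0 p 1|²` is a rational multiple
   of `|p 2 p 3|²` (two opposite sides), then `p` is subtransitive.

The Ramsey statement is proved in full, without appeal to the theorem of Kříž: the covering
transitive sets are orbits of transitive `2`-groups of isometries, and a finite set with a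
transitive `2`-group of isometries is Ramsey by an elementary induction along a chain of
index-two subgroups.  The covering sets come from weighted clock structures (a branching process
along the powers of a root of unity, closed up by an averaging argument; H80/GN, H80/GM,
helper80), in which the steps of weight `mu` are simulated by fair steps through a gadget.  The
gadget values are closed under sums, positive rational multiples and inverses (H3/GW, helper3),
and the Routh-Hurwitz continued fraction of a polynomial with all roots in the right half plane
expresses `1` by these operations from `mu / (1 - mu)` (H3/HW, helper3).  The necessity is a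
Galois-conjugation argument on the permutation module of a transitive cover (H16/GN2; NecTR for
a totally real ratio).  Similarity invariance and the normal form are in H16/GN2 (Sim*, Cyclic,
Universal).
-/

namespace Vale.Agent.Results.P058.A000000000_CyclicTotallyReal

open Vale.Agent.H16.Kite Polynomial

theorem result :
    ∀ (p : Fin 4 → EuclideanSpace ℝ (Fin 2)) (lam mu : ℝ), 0 < lam → lam < 1 → 0 < mu → mu < 1 →
      Function.Injective p →
      (∃ (O : EuclideanSpace ℝ (Fin 2)) (ρ : ℝ), ∀ i, dist (p i) O = ρ) →
      lam • p 0 + (1 - lam) • p 2 = mu • p 1 + (1 - mu) • p 3 →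
      (((IsAlgebraic ℚ lam ∧
            ∀ z : ℂ, aeval z (minpoly ℚ lam) = 0 → ∃ r : ℝ, z = (r : ℂ) ∧ 0 < r ∧ r < 1) ∨
          (IsAlgebraic ℚ mu ∧
            ∀ z : ℂ, aeval z (minpoly ℚ mu) = 0 → ∃ r : ℝ, z = (r : ℂ) ∧ 0 < r ∧ r < 1)) →
        (EmbedsInTransitive p ↔
          ((IsAlgebraic ℚ lam ∧ ∀ l : ℝ, aeval l (minpoly ℚ lam) = 0 → 0 < l ∧ l < 1) ∧
            (IsAlgebraic ℚ mu ∧ ∀ m : ℝ, aeval m (minpoly ℚ mu) = 0 → 0 < m ∧ m < 1))) ∧
        (EmbedsInSolubleTransitive p ↔ EmbedsInTransitive p) ∧
        (EmbedsInTransitive p → IsRamsey p)) ∧
      ((IsAlgebraic ℚ lam ∧ ∀ l : ℝ, aeval l (minpoly ℚ lam) = 0 → 0 < l ∧ l < 1) →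
        (IsAlgebraic ℚ mu ∧ ∀ m : ℝ, aeval m (minpoly ℚ mu) = 0 → 0 < m ∧ m < 1) →
        ((∀ z : ℂ, aeval z (minpoly ℚ lam) = 0 → ‖z - 1 / 2‖ < 1 / 2) ∨
          (∀ z : ℂ, aeval z (minpoly ℚ mu) = 0 → ‖z - 1 / 2‖ < 1 / 2)) →
        IsRamsey p ∧ EmbedsInSolubleTransitive p) ∧
      (EmbedsInTransitive p →
        ∀ (K : Type) [Field K] (ι ι' : K →+* ℝ) (x y : K), ι x = lam → ι y = mu →
          ¬ ((0 < ι' y ∧ ι' y < 1 ∧ (ι' x < 0 ∨ 1 < ι' x)) ∨
            (0 < ι' x ∧ ι' x < 1 ∧ (ι' y < 0 ∨ 1 < ι' y)))) ∧
      (((∃ q : ℚ, dist (p 0) (p 3) ^ 2 = (q : ℝ) * dist (p 1) (p 2) ^ 2) ∨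
          (∃ q : ℚ, dist (p 0) (p 1) ^ 2 = (q : ℝ) * dist (p 2) (p 3) ^ 2)) →
        EmbedsInTransitive p) :=
  cyclic_main3

end Vale.Agent.Results.P058.A000000000_CyclicTotallyReal
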