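import Vale.Agent.H16.GN2.Intrinsic

/-!
# P058 (finite Euclidean Ramsey sets): cyclic quadrilaterals one of whose diagonals is cut by the
other in a rational ratio are classified, and the subtransitive ones are Ramsey

Throughout, `p 0, p 1, p 2, p 3` are four distinct points of the Euclidean plane lying on a common
circle, and `lam`, `mu` in `(0, 1)` are real numbers with
`lam • p 0 + (1 - lam) • p 2 = mu • p 1 + (1 - mu) • p 3`: the diagonals `p 0 p 2` and `p 1 p 3`
of the cyclic quadrilateral cross, and cut each other in the ratios `lam` and `mu`.  (Every four
distinct concyclic points, listed in their cyclic order, are of this form.)  No normal form is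
used: the statement is about arbitrary such points.

1. If `lam` or `mu` is rational (one diagonal is cut by the other in a rational ratio), then
   * `p` is subtransitive (congruent to a subset of a finite transitive set) if and only if `lam`
     and `mu` are algebraic and all real roots of their minimal polynomials over `ℚ` lie in
     `(0, 1)` (for the rational one of the two this holds automatically);
   * `p` is subtransitive if and only if it is congruent to a subset of a finite set on which a
     soluble group of isometries acts transitively;
   * if `p` is subtransitive then `p` is Ramsey.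
2. In general: if `p` is subtransitive, then for every field `K` with two ring homomorphisms
   `ι, ι' : K → ℝ` and elements `x`, `y` with `ι x = lam`, `ι y = mu`, it is not the case that one
   of `ι' x`, `ι' y` lies in `(0, 1)` and the other one lies outside `[0, 1]`.
3. If `|p 0 p 3|²` is a rational multiple of `|p 1 p 2|²`, or `|p 0 p 1|²` is a rational multiple
   of `|p 2 p 3|²` (two opposite sides), then `p` is subtransitive.

The Ramsey statement is proved in full, without appeal to the theorem of Kříž: the covering
transitive sets are orbits of transitive `2`-groups of isometries, and a finite set with a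
transitive `2`-group of isometries is Ramsey by an elementary induction along a chain of
index-two subgroups.  The covering sets of part 1 come from weighted clock structures (a
branching process along the powers of a root of unity, closed up by an averaging argument), in
which the steps of rational weight are simulated by fair steps (H80/GN, helper80); the
necessity is a Galois-conjugation argument on the permutation module of a transitive cover
(H16/GN2).  Similarity invariance and the normal form are in H16/GN2 (Sim*, Cyclic, Universal).
-/

namespace Vale.Agent.Results.P058.A0000000_CyclicQuadrilaterals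

open Vale.Agent.H16.Kite Polynomial

theorem result :
    ∀ (p : Fin 4 → EuclideanSpace ℝ (Fin 2)) (lam mu : ℝ), 0 < lam → lam < 1 → 0 < mu → mu < 1 →
      Function.Injective p →
      (∃ (O : EuclideanSpace ℝ (Fin 2)) (ρ : ℝ), ∀ i, dist (p i) O = ρ) →
      lam • p 0 + (1 - lam) • p 2 = mu • p 1 + (1 - mu) • p 3 →
      (((∃ q : ℚ, lam = q) ∨ (∃ q : ℚ, mu = q)) →
        (EmbedsInTransitive p ↔
          ((IsAlgebraic ℚ lam ∧ ∀ l : ℝ, aeval l (minpoly ℚ lam) = 0 → 0 < l ∧ l < 1) ∧
            (IsAlgebraic ℚ mu ∧ ∀ m : ℝ, aeval m (minpoly ℚ mu) = 0 → 0 < m ∧ m < 1))) ∧
        (EmbedsInSolubleTransitive p ↔ EmbedsInTransitive p) ∧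
        (EmbedsInTransitive p → IsRamsey p)) ∧
      (EmbedsInTransitive p →
        ∀ (K : Type) [Field K] (ι ι' : K →+* ℝ) (x y : K), ι x = lam → ι y = mu →
          ¬ ((0 < ι' y ∧ ι' y < 1 ∧ (ι' x < 0 ∨ 1 < ι' x)) ∨
            (0 < ι' x ∧ ι' x < 1 ∧ (ι' y < 0 ∨ 1 < ι' y)))) ∧
      (((∃ q : ℚ, dist (p 0) (p 3) ^ 2 = (q : ℝ) * dist (p 1) (p 2) ^ 2) ∨
          (∃ q : ℚ, dist (p 0) (p 1) ^ 2 = (q : ℝ) * dist (p 2) (p 3) ^ 2)) →
        EmbedsInTransitive p) :=
  cyclic_main

end Vale.Agent.Results.P058.A0000000_CyclicQuadrilaterals
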