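import Vale.Agent.H16.GQ.Full2

/-!
# P058 (finite Euclidean Ramsey sets): cyclic quadrilaterals with a rational ratio of the squares
of two opposite sides

`gquad lam mu c` is the cyclic quadrilateral `A = (1, 0)`, `C = (-1, 0)`,
`B = P + 2 (1 - mu) g (c, √(1 - c²))`, `D = P - 2 mu g (c, √(1 - c²))` with `P = (2 lam - 1, 0)`
and `g = √(lam (1 - lam) / (mu (1 - mu)))` (vertices `0, 1, 2, 3 = A, B, C, D`): its diagonals
`A C` and `B D` meet at `P = lam A + (1 - lam) C = mu B + (1 - mu) D` and `c` is the cosine of the
angle between them.  Up to similarity these are all cyclic quadrilaterals (`0 < lam, mu < 1`,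
`|c| < 1`).

1. For all real `lam`, `mu` in `(0, 1)` and all real `c` with `|c| < 1`:
   * if `|AD|²` is a rational multiple of `|BC|²`, or `|AB|²` is a rational multiple of `|CD|²`,
     then `gquad lam mu c` is subtransitive (congruent to a subset of a finite transitive set);
     for cyclic trapezoids the ratio is `1`, and for rational `lam`, `mu` both ratios are rational
     (`|AD|² / |BC|² = mu (1 - lam) / (lam (1 - mu))`,
     `|AB|² / |CD|² = (1 - lam) (1 - mu) / (lam mu)`);
   * if both ratios are rational and the first coordinates of the four vertices lie in `[-1, 1]`,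
     i.e. if `B` and `D` project orthogonally into the segment `A C` (for instance if the
     diagonals are perpendicular), then `gquad lam mu c` is Ramsey.
2. For all real `t`, `c` with `|t| < 1`, `|c| < 1` (the case `mu = 1/2`, `lam = (1 + t) / 2`: the
   diagonal `A C` bisects the diagonal `B D`): the quadrilateral is subtransitive if and only if
   `t` is algebraic and all real roots of its minimal polynomial over `ℚ` lie in `(-1, 1)`; it is
   subtransitive if and only if it is congruent to a subset of a finite set on which a soluble
   group of isometries acts transitively; and if it is subtransitive then it is Ramsey.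

The Ramsey statements are proved in full, without appeal to the theorem of Kříž: the covering
transitive sets are built with transitive `2`-groups of isometries (for part 1: weighted
single-kink signed structures, closed under double covers, whose parameters are reached by a
Euclid-type descent), and a finite set with a transitive `2`-group of isometries is Ramsey by an
elementary induction along a chain of index-two subgroups.  The subtransitivity in part 1 for all
angles uses explicit two-scale window structures on boxes of pairs of integers.
-/

namespace Vale.Agent.Results.P058.A00000_OppositeSidesRational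

open Vale.Agent.H16.Kite Polynomial

theorem result :
    (∀ lam mu c : ℝ, 0 < lam → lam < 1 → 0 < mu → mu < 1 → |c| < 1 →
      (((∃ q : ℚ, dist (gquad lam mu c 0) (gquad lam mu c 3) ^ 2 =
              (q : ℝ) * dist (gquad lam mu c 1) (gquad lam mu c 2) ^ 2) ∨
          (∃ q : ℚ, dist (gquad lam mu c 0) (gquad lam mu c 1) ^ 2 =
              (q : ℝ) * dist (gquad lam mu c 2) (gquad lam mu c 3) ^ 2)) →
        EmbedsInTransitive (gquad lam mu c)) ∧
      ((∃ q : ℚ, dist (gquad lam mu c 0) (gquad lam mu c 3) ^ 2 =
              (q : ℝ) * dist (gquad lam mu c 1) (gquad lam mu c 2) ^ 2) →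
        (∃ q : ℚ, dist (gquad lam mu c 0) (gquad lam mu c 1) ^ 2 =
              (q : ℝ) * dist (gquad lam mu c 2) (gquad lam mu c 3) ^ 2) →
        (∀ i, |gquad lam mu c i 0| ≤ 1) → IsRamsey (gquad lam mu c))) ∧
    (∀ t c : ℝ, |t| < 1 → |c| < 1 →
      (EmbedsInTransitive (gquad ((1 + t) / 2) (1 / 2) c) ↔
        (IsAlgebraic ℚ t ∧ ∀ t' : ℝ, aeval t' (minpoly ℚ t) = 0 → |t'| < 1)) ∧
      (EmbedsInSolubleTransitive (gquad ((1 + t) / 2) (1 / 2) c) ↔
        EmbedsInTransitive (gquad ((1 + t) / 2) (1 / 2) c)) ∧
      (EmbedsInTransitive (gquad ((1 + t) / 2) (1 / 2) c) →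
        IsRamsey (gquad ((1 + t) / 2) (1 / 2) c))) :=
  gquad_main2

end Vale.Agent.Results.P058.A00000_OppositeSidesRational
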